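import Mathlib.CategoryTheory.Monoidal.Mon
import Vale.Agent.P251.R.TT

/-!
# Powers of homotopy classes, and the Adams tower
-/

open CategoryTheory MonoidalCategory Limits Pretriangulated MonObj

universe v u

namespace Vale.Agent.P251

/-- The iterated shift `S[m][m]…[m]` (`k` times). -/
def iterShift {T : Type u} [Category.{v} T] [HasShift T ℤ] (S : T) (m : ℤ) : ℕ → T
  | 0 => S
  | k + 1 => (iterShift S m k)⟦m⟧

/-- The `k`-th power (iterated composition) `S[m]…[m] ⟶ S` of a map `x : S[m] ⟶ S`; if `S` is the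
sphere, this is the `k`-th power of `x` in the graded ring of stable homotopy groups. -/
def power {T : Type u} [Category.{v} T] [HasShift T ℤ] {S : T} {m : ℤ}
    (x : S⟦m⟧ ⟶ S) : (k : ℕ) → (iterShift S m k ⟶ S)
  | 0 => 𝟙 S
  | k + 1 => (power x k)⟦m⟧' ≫ x

section

variable {D : Type u} [Category.{v} D] [MonoidalCategory D]

/-- The tensor powers `I^{⊗ s}`. -/
def tensorPower (I : D) : ℕ → D
  | 0 => 𝟙_ D
  | s + 1 => tensorPower I s ⊗ I

/-- The composite `I^{⊗ s} ⟶ I^{⊗ (s-1)} ⟶ ⋯ ⟶ 𝟙` of the Adams tower, for `ι : I ⟶ 𝟙`. -/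
def towerMap {I : D} (ι : I ⟶ 𝟙_ D) : ∀ s : ℕ, tensorPower I s ⟶ 𝟙_ D
  | 0 => 𝟙 _
  | s + 1 => (tensorPower I s ◁ ι) ≫ (ρ_ (tensorPower I s)).hom ≫ towerMap ι s

end

variable {D : Type u} [Category.{v} D] [Preadditive D] [HasZeroObject D]
    [HasShift D ℤ] [∀ n : ℤ, (shiftFunctor D n).Additive] [Pretriangulated D]
    [MonoidalCategory D] [TensorTriangulated D]

/-- The differential `d₁` of the `E₁`-page of the `E`-based Adams spectral sequence of the unit: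
the composite `I^{⊗ s} ⊗ E ⟶ (I^{⊗ s} ⊗ I)[1] ⟶ (I^{⊗ (s+1)} ⊗ E)[1]` induced by
`δ : E ⟶ I[1]` and by the unit of `E`. -/
def adamsD1 {E : D} [MonObj E] {I : D} (δ : E ⟶ I⟦(1 : ℤ)⟧) (s : ℕ) :
    tensorPower I s ⊗ E ⟶ (tensorPower I (s + 1) ⊗ E)⟦(1 : ℤ)⟧ :=
  (tensorPower I s ◁ δ) ≫ (TensorTriangulated.shiftIso (tensorPower I s) I).hom ≫
    ((ρ_ (tensorPower I (s + 1))).inv ≫ (tensorPower I (s + 1) ◁ η[E]))⟦(1 : ℤ)⟧'

end Vale.Agent.P251
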