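import Mathlib.CategoryTheory.Triangulated.Yoneda
import Vale.Agent.P251.Q2.Defs

/-!
The Adams tower of a monoid object `E` in a tensor triangulated category, and the vanishing of
composites of many `E`-null maps if the `E₂`-term has a horizontal vanishing line.
(This is the file `Vale/Agent/P251/H240/Adams.lean` of helper240, adapted to the definitions of
`Vale/Agent/P251/Q2/Defs.lean`.)
-/

set_option linter.unusedSectionVars false

open CategoryTheory MonoidalCategory Limits Pretriangulated MonObj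

universe v u

namespace Vale.Agent.P251.AdamsT

variable {D : Type u} [Category.{v} D] [Preadditive D] [HasZeroObject D]
    [HasShift D ℤ] [∀ n : ℤ, (shiftFunctor D n).Additive] [Pretriangulated D]
    [MonoidalCategory D] [TensorTriangulated D]

section

variable {E : D} [MonObj E] {I : D} (ι : I ⟶ 𝟙_ D) (δ : E ⟶ I⟦(1 : ℤ)⟧)

/-- The map `I^{⊗ (s+1)} ⟶ I^{⊗ s}` of the Adams tower. -/
def down (s : ℕ) : tensorPower I (s + 1) ⟶ tensorPower I s :=
  (tensorPower I s ◁ ι) ≫ (ρ_ _).hom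

/-- The map `Y ⟶ Y ⊗ E`. -/
def hur (E : D) [MonObj E] (Y : D) : Y ⟶ Y ⊗ E := (ρ_ Y).inv ≫ (Y ◁ η[E])

lemma hur_naturality {X Y : D} (f : X ⟶ Y) : f ≫ hur E Y = hur E X ≫ (f ▷ E) := by
  simp [hur, whisker_exchange]

/-- The boundary map `I^{⊗ s} ⊗ E ⟶ I^{⊗ (s+1)}[1]`. -/
def bd (s : ℕ) : tensorPower I s ⊗ E ⟶ (tensorPower I (s + 1))⟦(1 : ℤ)⟧ :=
  (tensorPower I s ◁ δ) ≫ (TensorTriangulated.shiftIso (tensorPower I s) I).hom

variable {ι δ} (hI : Triangle.mk ι η[E] δ ∈ distTriang D)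

include hI in
/-- For every `Y` the triangle `Y ⊗ I ⟶ Y ⟶ Y ⊗ E ⟶ (Y ⊗ I)[1]` is distinguished. -/
lemma tensor_distinguished (Y : D) :
    Triangle.mk ((Y ◁ ι) ≫ (ρ_ Y).hom) (hur E Y)
      ((Y ◁ δ) ≫ (TensorTriangulated.shiftIso Y I).hom) ∈ distTriang D := by
  have h := TensorTriangulated.distinguished Y _ hI
  refine isomorphic_distinguished _ h _ ?_
  refine Triangle.isoMk _ _ (Iso.refl (Y ⊗ I)) (ρ_ Y).symm (Iso.refl (Y ⊗ E)) ?_ ?_ ?_
  · change (Y ◁ ι ≫ (ρ_ Y).hom) ≫ (ρ_ Y).inv = 𝟙 (Y ⊗ I) ≫ Y ◁ ι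
    simp
  · change ((ρ_ Y).inv ≫ Y ◁ η[E]) ≫ 𝟙 (Y ⊗ E) = (ρ_ Y).inv ≫ Y ◁ η[E]
    simp
  · change (Y ◁ δ ≫ (TensorTriangulated.shiftIso Y I).hom) ≫
      (shiftFunctor D (1 : ℤ)).map (𝟙 (Y ⊗ I)) =
        𝟙 (Y ⊗ E) ≫ Y ◁ δ ≫ (TensorTriangulated.shiftIso Y I).hom
    simp

include hI in
/-- The triangles of the Adams tower. -/
lemma tower_distinguished (s : ℕ) :
    Triangle.mk (down ι s) (hur E (tensorPower I s)) (bd δ s) ∈ distTriang D :=
  tensor_distinguished hI (tensorPower I s)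

/-- A map is `E`-null if it becomes zero after tensoring with `E`. -/
def ENull (E : D) {X Y : D} (f : X ⟶ Y) : Prop := f ▷ E = 0

/-- `NullComp E s f`: the map `f` is a composite of `s` maps which are `E`-null, followed by an
arbitrary map. -/
inductive NullComp (E : D) : ℕ → ∀ {X Y : D}, (X ⟶ Y) → Prop
  | zero {X Y : D} (f : X ⟶ Y) : NullComp E 0 f
  | succ {s : ℕ} {X Y Z : D} (f : X ⟶ Y) (g : Y ⟶ Z) (hf : ENull E f) (hg : NullComp E s g) :
      NullComp E (s + 1) (f ≫ g)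

lemma towerMap_succ (s : ℕ) : towerMap ι (s + 1) = down ι s ≫ towerMap ι s :=
  (Category.assoc _ _ _).symm

lemma adamsD1_eq (s : ℕ) :
    (adamsD1 δ s : tensorPower I s ⊗ E ⟶ _) = bd δ s ≫ (hur E (tensorPower I (s + 1)))⟦(1 : ℤ)⟧' :=
  (Category.assoc _ _ _).symm

include hI in
/-- A composite of `s` maps which are `E`-null, with target the unit, lifts to `I^{⊗ s}`. -/
theorem lift_of_nullComp {s : ℕ} {X Y : D} (f : X ⟶ Y) (hf : NullComp E s f)
    (a : Y ⟶ 𝟙_ D) : ∃ g : X ⟶ tensorPower I s, g ≫ towerMap ι s = f ≫ a := by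
  induction hf with
  | zero f => exact ⟨f ≫ a, Category.comp_id _⟩
  | @succ s X Y Z f g hf hg ih =>
    obtain ⟨g', hg'⟩ := ih a
    have h0 : (f ≫ g') ≫ hur E (tensorPower I s) = 0 := by
      rw [Category.assoc, hur_naturality, ← Category.assoc, hur_naturality, Category.assoc]
      have : f ▷ E = 0 := hf
      rw [this, zero_comp, comp_zero]
    obtain ⟨k, hk'⟩ : ∃ k : X ⟶ tensorPower I (s + 1), f ≫ g' = k ≫ down ι s :=
      Triangle.coyoneda_exact₂ _ (tower_distinguished hI s) (f ≫ g') h0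
    refine ⟨k, ?_⟩
    rw [towerMap_succ, ← Category.assoc k, ← hk', Category.assoc, hg', Category.assoc]

include hI in
/-- One step: if the `E₂`-term (for maps out of `W`) vanishes in filtration `s + 1`, then every
`x : W ⟶ I^{⊗ (s+1)}` can be moved one step up the tower, keeping its image in `I^{⊗ s}`. -/
lemma step (W : D) (s : ℕ)
    (hV : ∀ e : W ⟶ tensorPower I (s + 1) ⊗ E, e ≫ adamsD1 δ (s + 1) = 0 →
      ∃ z : W⟦(1 : ℤ)⟧ ⟶ tensorPower I s ⊗ E, z ≫ adamsD1 δ s = e⟦(1 : ℤ)⟧')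
    (x : W ⟶ tensorPower I (s + 1)) :
    ∃ x' : W ⟶ tensorPower I (s + 2), x' ≫ down ι (s + 1) ≫ down ι s = x ≫ down ι s := by
  have h1 := tower_distinguished hI s
  have h2 := tower_distinguished hI (s + 1)
  obtain ⟨z, hz⟩ := hV (x ≫ hur E (tensorPower I (s + 1))) (by
    have : hur E (tensorPower I (s + 1)) ≫ bd δ (s + 1) = 0 := comp_distTriang_mor_zero₂₃ _ h2
    rw [adamsD1_eq, Category.assoc, ← Category.assoc (hur E (tensorPower I (s + 1))), this,
      zero_comp, comp_zero])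
  -- `z ≫ bd` desuspends
  obtain ⟨w, hw⟩ := (shiftFunctor D (1 : ℤ)).map_surjective (z ≫ bd δ s)
  have hw0 : w ≫ down ι s = 0 := by
    apply (shiftFunctor D (1 : ℤ)).map_injective
    rw [Functor.map_comp, hw, Functor.map_zero, Category.assoc]
    have : bd δ s ≫ (down ι s)⟦(1 : ℤ)⟧' = 0 := comp_distTriang_mor_zero₃₁ _ h1
    rw [this, comp_zero]
  have hx0 : (x - w) ≫ hur E (tensorPower I (s + 1)) = 0 := by
    apply (shiftFunctor D (1 : ℤ)).map_injective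
    rw [Preadditive.sub_comp, Functor.map_sub, Functor.map_zero, ← hz, Functor.map_comp, hw, adamsD1_eq,
      Category.assoc, sub_self]
  obtain ⟨x', hx''⟩ : ∃ x' : W ⟶ tensorPower I (s + 2), x - w = x' ≫ down ι (s + 1) :=
    Triangle.coyoneda_exact₂ _ h2 (x - w) hx0
  refine ⟨x', ?_⟩
  rw [← Category.assoc, ← hx'', Preadditive.sub_comp, hw0, sub_zero]

include hI in
/-- Iteration of `step`. -/
lemma steps (W : D) (N : ℕ)
    (hV : ∀ s, N ≤ s + 1 → ∀ e : W ⟶ tensorPower I (s + 1) ⊗ E, e ≫ adamsD1 δ (s + 1) = 0 →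
      ∃ z : W⟦(1 : ℤ)⟧ ⟶ tensorPower I s ⊗ E, z ≫ adamsD1 δ s = e⟦(1 : ℤ)⟧')
    (s : ℕ) (hs : N ≤ s + 1) (x : W ⟶ tensorPower I (s + 1)) (t : ℕ) (ht : s + 1 ≤ t) :
    ∃ x' : W ⟶ tensorPower I t, x' ≫ towerMap ι t = x ≫ towerMap ι (s + 1) := by
  induction t, ht using Nat.le_induction with
  | base => exact ⟨x, rfl⟩
  | succ t ht ih =>
    obtain ⟨y, hy⟩ := ih
    obtain ⟨r, rfl⟩ : ∃ r, t = r + 1 := ⟨t - 1, by omega⟩
    obtain ⟨y', hy'⟩ := step hI W r (hV r (by omega)) y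
    refine ⟨y', ?_⟩
    rw [← hy, towerMap_succ, towerMap_succ, ← Category.assoc (down ι (r + 1)),
      ← Category.assoc y', hy', Category.assoc]

include hI in
/-- **Vanishing theorem.** Suppose that the `E₂`-term of the `E`-based Adams spectral sequence of
the unit vanishes in filtrations `≥ N` (for maps out of `W`), and that some composite
`I^{⊗ M} ⟶ 𝟙` is zero on maps out of `W`. Then every composite of `N` maps which are `E`-null
`W ⟶ ⋯ ⟶ 𝟙` is zero. -/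
theorem eq_zero_of_nullComp (W : D) (N : ℕ) (hN : 0 < N)
    (hV : ∀ s, N ≤ s + 1 → ∀ e : W ⟶ tensorPower I (s + 1) ⊗ E, e ≫ adamsD1 δ (s + 1) = 0 →
      ∃ z : W⟦(1 : ℤ)⟧ ⟶ tensorPower I s ⊗ E, z ≫ adamsD1 δ s = e⟦(1 : ℤ)⟧')
    (hM : ∃ M : ℕ, ∀ x : W ⟶ tensorPower I M, x ≫ towerMap ι M = 0)
    (x : W ⟶ 𝟙_ D) (hx : NullComp E N x) : x = 0 := by
  obtain ⟨M, hM⟩ := hM
  have hM' : ∀ t, M ≤ t → ∀ x : W ⟶ tensorPower I t, x ≫ towerMap ι t = 0 := by
    intro t ht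
    induction t, ht using Nat.le_induction with
    | base => exact hM
    | succ t ht ih =>
      intro x
      have := ih (x ≫ down ι t)
      rwa [Category.assoc, ← towerMap_succ] at this
  obtain ⟨g, hg⟩ := lift_of_nullComp hI x hx (𝟙 _)
  rw [Category.comp_id] at hg
  obtain ⟨s, rfl⟩ : ∃ s, N = s + 1 := ⟨N - 1, by omega⟩
  obtain ⟨y, hy⟩ := steps hI W (s + 1) hV s le_rfl g (s + 1 + M) (by omega)
  rw [← hg, ← hy]
  exact hM' _ (by omega) y

end

end Vale.Agent.P251.AdamsT
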