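import Mathlib.CategoryTheory.Triangulated.Functor
import Mathlib.CategoryTheory.Monoidal.Mon
import Vale.Agent.P251.Q2.Defs
import Vale.Agent.P251.R.Loc
import Vale.Agent.P251.Q2.Adams

/-!
# Null maps and Adams filtration: formal properties
-/

set_option linter.unusedSectionVars false

open CategoryTheory MonoidalCategory Limits Pretriangulated MonObj

universe v u v' u'

namespace Vale.Agent.P251

variable {T : Type u} [Category.{v} T] [Preadditive T] [HasZeroObject T]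
    [HasShift T ℤ] [∀ n : ℤ, (shiftFunctor T n).Additive] [Pretriangulated T]
    [MonoidalCategory T] [TensorTriangulated T]

/-- `f` has `E`-Adams filtration at least `s`: it is a composite (ending at its target) of `s`
maps `h` with `E ⊗ h = 0`, precomposed with an arbitrary map. -/
def AdamsFiltrationGE (E : T) : ℕ → ∀ {X Y : T}, (X ⟶ Y) → Prop
  | 0, _, _, _ => True
  | s + 1, X, Y, f => ∃ (Z : T) (g : X ⟶ Z) (h : Z ⟶ Y),
      AdamsFiltrationGE E s g ∧ E ◁ h = 0 ∧ g ≫ h = f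

lemma null_comp_left {E X Y Z : T} (g : X ⟶ Y) {h : Y ⟶ Z} (hh : E ◁ h = 0) :
    E ◁ (g ≫ h) = 0 := by
  rw [MonoidalCategory.whiskerLeft_comp, hh, comp_zero]

lemma null_comp_right {E X Y Z : T} {h : X ⟶ Y} (hh : E ◁ h = 0) (g : Y ⟶ Z) :
    E ◁ (h ≫ g) = 0 := by
  rw [MonoidalCategory.whiskerLeft_comp, hh, zero_comp]

/-- Conjugation by isomorphisms does not change nullity. -/
lemma null_of_conj {E X Y X' Y' : T} {f : X ⟶ Y} {f' : X' ⟶ Y'} (e : X ≅ X') (e' : Y ≅ Y')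
    (h : f ≫ e'.hom = e.hom ≫ f') (hf : E ◁ f = 0) : E ◁ f' = 0 := by
  have : f' = e.inv ≫ f ≫ e'.hom := by rw [h, e.inv_hom_id_assoc]
  rw [this]
  exact null_comp_left _ (null_comp_right hf _)

lemma null_shift_one {E X Y : T} {f : X ⟶ Y} (hf : E ◁ f = 0) : E ◁ (f⟦(1 : ℤ)⟧') = 0 := by
  rw [← cancel_mono (TensorTriangulated.shiftIso E Y).hom,
    TensorTriangulated.shiftIso_natural_right, hf, Functor.map_zero, comp_zero, zero_comp]

lemma null_of_shift_one {E X Y : T} {f : X ⟶ Y} (hf : E ◁ (f⟦(1 : ℤ)⟧') = 0) : E ◁ f = 0 := by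
  have h := TensorTriangulated.shiftIso_natural_right E f
  rw [hf, zero_comp] at h
  have h2 : (E ◁ f)⟦(1 : ℤ)⟧' = 0 := by
    rw [← cancel_epi (TensorTriangulated.shiftIso E X).hom, ← h, comp_zero]
  exact (shiftFunctor T (1 : ℤ)).map_injective (by rw [h2, Functor.map_zero])

/-- Shifts of null maps are null. -/
lemma null_shift {E : T} (a : ℤ) : ∀ {X Y : T} {f : X ⟶ Y}, E ◁ f = 0 → E ◁ (f⟦a⟧') = 0 := by
  induction a using Int.induction_on with
  | zero =>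
    intro X Y f hf
    exact null_of_conj ((shiftFunctorZero T ℤ).app X).symm ((shiftFunctorZero T ℤ).app Y).symm
      ((shiftFunctorZero T ℤ).inv.naturality f) hf
  | succ a ih =>
    intro X Y f hf
    exact null_of_conj ((shiftFunctorAdd T (a : ℤ) 1).app X).symm
      ((shiftFunctorAdd T (a : ℤ) 1).app Y).symm
      ((shiftFunctorAdd T (a : ℤ) 1).inv.naturality f) (null_shift_one (ih hf))
  | pred a ih =>
    intro X Y f hf
    apply null_of_shift_one
    have e := shiftFunctorAdd' T (-(a : ℤ) - 1) 1 (-(a : ℤ)) (by ring)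
    exact null_of_conj (e.app X) (e.app Y) (e.hom.naturality f) (ih hf)

/-- In a symmetric monoidal category, tensoring a null map with any object gives a null map. -/
lemma null_whiskerLeft [SymmetricCategory T] {E X Y : T} (W : T) {f : X ⟶ Y} (hf : E ◁ f = 0) :
    E ◁ (W ◁ f) = 0 := by
  have h1 : (W ⊗ E) ◁ f = 0 := by
    rw [MonoidalCategory.tensor_whiskerLeft, hf, MonoidalPreadditive.whiskerLeft_zero]
    simp
  have h2 : (E ⊗ W) ◁ f = 0 := by
    have h3 : ((β_ E W).hom ▷ X) ≫ ((W ⊗ E) ◁ f) = ((E ⊗ W) ◁ f) ≫ ((β_ E W).hom ▷ Y) :=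
      (whisker_exchange _ _).symm
    rw [h1, comp_zero] at h3
    rw [← cancel_mono ((β_ E W).hom ▷ Y), ← h3, zero_comp]
  rw [MonoidalCategory.tensor_whiskerLeft] at h2
  have h4 : E ◁ W ◁ f = (α_ E W X).inv ≫ ((α_ E W X).hom ≫ E ◁ W ◁ f ≫ (α_ E W Y).inv) ≫
      (α_ E W Y).hom := by simp
  rw [h4, h2, zero_comp, comp_zero]

section filtration

variable {E : T}

lemma AdamsFiltrationGE.precomp {s : ℕ} : ∀ {X Y Z : T} (g : X ⟶ Y) {f : Y ⟶ Z},
    AdamsFiltrationGE E s f → AdamsFiltrationGE E s (g ≫ f) := by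
  induction s with
  | zero => intros; trivial
  | succ s ih =>
    rintro X Y Z g f ⟨W, a, b, ha, hb, rfl⟩
    exact ⟨W, g ≫ a, b, ih g ha, hb, by simp⟩

lemma AdamsFiltrationGE.postcomp {s : ℕ} {X Y Z : T} {f : X ⟶ Y}
    (hf : AdamsFiltrationGE E s f) (g : Y ⟶ Z) : AdamsFiltrationGE E s (f ≫ g) := by
  cases s with
  | zero => trivial
  | succ s =>
    obtain ⟨W, a, b, ha, hb, rfl⟩ := hf
    exact ⟨W, a, b ≫ g, ha, null_comp_right hb g, by simp⟩

lemma AdamsFiltrationGE.comp {s t : ℕ} {X Y Z : T} {f : X ⟶ Y} {g : Y ⟶ Z}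
    (hf : AdamsFiltrationGE E s f) (hg : AdamsFiltrationGE E t g) :
    AdamsFiltrationGE E (s + t) (f ≫ g) := by
  induction t generalizing X Y Z with
  | zero => exact hf.postcomp g
  | succ t ih =>
    obtain ⟨W, a, b, ha, hb, rfl⟩ := hg
    exact ⟨W, f ≫ a, b, ih hf ha, hb, by simp⟩

lemma AdamsFiltrationGE.mono {s t : ℕ} (hst : s ≤ t) {X Y : T} {f : X ⟶ Y}
    (hf : AdamsFiltrationGE E t f) : AdamsFiltrationGE E s f := by
  induction hst with
  | refl => exact hf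
  | step _ ih =>
    refine ih ?_
    obtain ⟨W, a, b, ha, hb, rfl⟩ := hf
    exact ha.postcomp b

lemma AdamsFiltrationGE.shift {s : ℕ} (a : ℤ) : ∀ {X Y : T} {f : X ⟶ Y},
    AdamsFiltrationGE E s f → AdamsFiltrationGE E s (f⟦a⟧') := by
  induction s with
  | zero => intros; trivial
  | succ s ih =>
    rintro X Y f ⟨W, g, h, hg, hh, rfl⟩
    exact ⟨W⟦a⟧, g⟦a⟧', h⟦a⟧', ih hg, null_shift a hh, by simp⟩

lemma AdamsFiltrationGE.of_conj {s : ℕ} {X Y X' Y' : T} {f : X ⟶ Y} {f' : X' ⟶ Y'}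
    (e : X ≅ X') (e' : Y ≅ Y') (h : f ≫ e'.hom = e.hom ≫ f')
    (hf : AdamsFiltrationGE E s f) : AdamsFiltrationGE E s f' := by
  have : f' = e.inv ≫ f ≫ e'.hom := by rw [h, e.inv_hom_id_assoc]
  rw [this]
  exact (hf.postcomp _).precomp _

end filtration

lemma eNull_of_null [SymmetricCategory T] {E X Y : T} {h : X ⟶ Y} (hh : E ◁ h = 0) :
    AdamsT.ENull E h := by
  have h1 : (h ▷ E) ≫ (β_ Y E).hom = (β_ X E).hom ≫ (E ◁ h) := by simp
  rw [hh, comp_zero] at h1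
  unfold AdamsT.ENull
  rw [← cancel_mono (β_ Y E).hom, h1, zero_comp]

lemma nullComp_succ {E : T} {s : ℕ} : ∀ {X Y Z : T} {g : X ⟶ Y} {h : Y ⟶ Z},
    AdamsT.NullComp E s g → AdamsT.ENull E h → AdamsT.NullComp E (s + 1) (g ≫ h) := by
  intro X Y Z g h hg hh
  induction hg with
  | zero g =>
    have h1 : AdamsT.ENull E (g ≫ h) := by
      have h2 : h ▷ E = 0 := hh
      unfold AdamsT.ENull
      rw [MonoidalCategory.comp_whiskerRight, h2, comp_zero]
    have := AdamsT.NullComp.succ (g ≫ h) (𝟙 Z) h1 (AdamsT.NullComp.zero _)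
    rwa [Category.comp_id] at this
  | succ f g hf hg ih =>
    rw [Category.assoc]
    exact AdamsT.NullComp.succ f (g ≫ h) hf (ih hh)

lemma AdamsFiltrationGE.nullComp [SymmetricCategory T] {E : T} {s : ℕ} :
    ∀ {X Y : T} {f : X ⟶ Y}, AdamsFiltrationGE E s f → AdamsT.NullComp E s f := by
  induction s with
  | zero => intro X Y f _; exact AdamsT.NullComp.zero f
  | succ s ih =>
    rintro X Y f ⟨Z, g, h, hg, hh, rfl⟩
    exact nullComp_succ (ih hg) (eNull_of_null hh)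

/-- **Even torsion classes have filtration at least two.** -/
theorem filtration_two [SymmetricCategory T] (E : T) [MonObj E] {p : ℕ} {m : ℤ}
    (htf : ∀ g : (𝟙_ T)⟦m⟧ ⟶ E, p • g = 0 → g = 0)
    (hodd : ∀ g : (𝟙_ T)⟦m + 1⟧ ⟶ E ⊗ E, g = 0)
    (x : (𝟙_ T)⟦m⟧ ⟶ 𝟙_ T) (hx : p • x = 0) : AdamsFiltrationGE E 2 x := by
  obtain ⟨I, a, b, hΔ⟩ := distinguished_cocone_triangle₁ (η[E])
  -- `a : I ⟶ 𝟙` is null
  have hE := TensorTriangulated.distinguished E _ hΔ
  have haη : a ≫ η[E] = 0 := comp_distTriang_mor_zero₁₂ _ hΔ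
  have hsplit : (E ◁ η[E]) ≫ μ[E] = (ρ_ E).hom := MonObj.mul_one E
  have ha : E ◁ a = 0 := by
    have h1 : (E ◁ a) ≫ (E ◁ η[E]) = 0 := by
      rw [← MonoidalCategory.whiskerLeft_comp, haη, MonoidalPreadditive.whiskerLeft_zero]
    rw [← cancel_mono (ρ_ E).hom, ← hsplit, ← Category.assoc, h1, zero_comp, zero_comp]
  -- first lift
  have h1 : x ≫ η[E] = 0 := by
    apply htf
    rw [← Preadditive.nsmul_comp, hx, zero_comp]
  obtain ⟨x', hx'⟩ : ∃ x' : (𝟙_ T)⟦m⟧ ⟶ I, x = x' ≫ a :=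
    Triangle.coyoneda_exact₂ _ hΔ x h1
  -- `π_m (E ⊗ I) = 0`
  have h2 : ∀ g : (𝟙_ T)⟦m⟧ ⟶ E ⊗ I, g = 0 := by
    intro g
    have h3 : (g⟦(1 : ℤ)⟧') ≫ (E ◁ a)⟦(1 : ℤ)⟧' = 0 := by
      rw [ha, Functor.map_zero, comp_zero]
    obtain ⟨k, hk⟩ : ∃ k : (𝟙_ T)⟦m⟧⟦(1 : ℤ)⟧ ⟶ E ⊗ E,
        g⟦(1 : ℤ)⟧' = k ≫ ((E ◁ b) ≫ (TensorTriangulated.shiftIso E I).hom) :=
      Triangle.coyoneda_exact₁ _ hE _ h3
    have h4 : k = 0 :=
      (cancel_epi ((shiftFunctorAdd' T m 1 (m + 1) rfl).hom.app (𝟙_ T))).1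
        ((hodd _).trans comp_zero.symm)
    have h6 : g⟦(1 : ℤ)⟧' = 0 := by
      rw [hk, h4, zero_comp]
    exact (shiftFunctor T (1 : ℤ)).map_injective (by rw [h6, Functor.map_zero])
  have h3 : ∀ g : (𝟙_ T)⟦m⟧ ⟶ I ⊗ E, g = 0 := by
    intro g
    have := h2 (g ≫ (β_ I E).hom)
    rw [← cancel_mono (β_ I E).hom, this, zero_comp]
  -- second lift
  have hI := TensorTriangulated.distinguished I _ hΔ
  obtain ⟨x'', hx''⟩ : ∃ x'' : (𝟙_ T)⟦m⟧ ⟶ I ⊗ I, x' ≫ (ρ_ I).inv = x'' ≫ (I ◁ a) :=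
    Triangle.coyoneda_exact₂ _ hI (x' ≫ (ρ_ I).inv) (h3 _)
  refine ⟨I, x'' ≫ ((I ◁ a) ≫ (ρ_ I).hom), a, ⟨_, x'', (I ◁ a) ≫ (ρ_ I).hom, trivial,
    null_comp_right (null_whiskerLeft I ha) _, rfl⟩, ha, ?_⟩
  rw [← Category.assoc x'', ← hx'', Category.assoc x', Iso.inv_hom_id, Category.comp_id, hx']

/-- The image of `power x k` under an exact functor has filtration at least `s k`. -/
theorem filtration_map_power {D : Type u'} [Category.{v'} D] [Preadditive D] [HasZeroObject D]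
    [HasShift D ℤ] [∀ n : ℤ, (shiftFunctor D n).Additive] [Pretriangulated D]
    [MonoidalCategory D] [TensorTriangulated D] (L : T ⥤ D) [L.CommShift ℤ]
    (E : D) {S : T} {m : ℤ} (x : S⟦m⟧ ⟶ S) {s : ℕ} (hx : AdamsFiltrationGE E s (L.map x)) (k : ℕ) :
    AdamsFiltrationGE E (k * s) (L.map (power x k)) := by
  induction k with
  | zero => rw [Nat.zero_mul]; trivial
  | succ k ih =>
    have e : L.map (power x (k + 1)) = L.map ((power x k)⟦m⟧') ≫ L.map x := by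
      exact L.map_comp _ _
    rw [e, Nat.succ_mul]
    refine AdamsFiltrationGE.comp ?_ hx
    exact AdamsFiltrationGE.of_conj ((L.commShiftIso m).symm.app _)
      ((L.commShiftIso m).symm.app _)
      ((L.commShiftIso m).inv.naturality (power x k)) (ih.shift _)

/-- The iterated shift is a shift. -/
lemma nonempty_iterShift_iso (S : T) (m : ℤ) (k : ℕ) :
    ∃ j : ℤ, Nonempty (iterShift S m k ≅ S⟦j⟧) := by
  induction k with
  | zero => exact ⟨0, ⟨((shiftFunctorZero T ℤ).app S).symm⟩⟩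
  | succ k ih =>
    obtain ⟨j, ⟨e⟩⟩ := ih
    exact ⟨j + m, ⟨(shiftFunctor T m).mapIso e ≪≫ ((shiftFunctorAdd T j m).app S).symm⟩⟩

end Vale.Agent.P251
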