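import Mathlib.CategoryTheory.Monoidal.Functor
import Mathlib.CategoryTheory.Adjunction.FullyFaithful
import Mathlib.CategoryTheory.Adjunction.Reflective
import Mathlib.CategoryTheory.Adjunction.Additive
import Vale.Agent.P251.Q2.Null

/-!
# The map `L_{n-1} S_p ⟶ L_{n-1} L_{K(n)} S_p` is not split
-/

set_option linter.unusedSectionVars false
set_option linter.unusedVariables false

open CategoryTheory MonoidalCategory Limits Pretriangulated MonObj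

universe v u v' u'

namespace Vale.Agent.P251

variable {T : Type u} [Category.{v} T] [Preadditive T] [HasZeroObject T]
    [HasShift T ℤ] [∀ n : ℤ, (shiftFunctor T n).Additive] [Pretriangulated T]
    [MonoidalCategory T] [TensorTriangulated T]
variable {D : Type u'} [Category.{v'} D] [Preadditive D] [HasZeroObject D]
    [HasShift D ℤ] [∀ n : ℤ, (shiftFunctor D n).Additive] [Pretriangulated D]
    [MonoidalCategory D] [TensorTriangulated D]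

/-- A map killed by the localization functor is killed by every map to a local object. -/
lemma comp_eq_zero_of_map_eq_zero (L : T ⥤ D) [L.Additive] [L.CommShift ℤ] [L.IsTriangulated]
    (R : D ⥤ T) [R.Additive] (adj : L ⊣ R) [R.Full] [R.Faithful] {A B Z : T}
    (hZ : ∀ W : T, IsZero (L.obj W) → ∀ g : W ⟶ Z, g = 0) (f : A ⟶ B) (hf : L.map f = 0)
    (g : B ⟶ Z) : f ≫ g = 0 := by
  obtain ⟨W, w, b, hΔ⟩ := distinguished_cocone_triangle₁ (adj.unit.app Z)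
  have h1 : IsIso (L.map (adj.unit.app Z)) := by
    have h2 : L.map (adj.unit.app Z) ≫ adj.counit.app (L.obj Z) = 𝟙 (L.obj Z) :=
      adj.left_triangle_components Z
    have h3 : IsIso (L.map (adj.unit.app Z) ≫ adj.counit.app (L.obj Z)) := by
      rw [h2]
      exact IsIso.id _
    exact IsIso.of_isIso_comp_right _ (adj.counit.app (L.obj Z))
  have h3 : IsZero (L.obj W) :=
    (Triangle.isZero₁_iff_isIso₂ _ (L.map_distinguished _ hΔ)).2 h1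
  have h4 : w = 0 := hZ W h3 w
  have h5 : (f ≫ g) ≫ adj.unit.app Z = 0 := by
    have h6 := adj.unit.naturality (f ≫ g)
    simp only [Functor.id_map, Functor.comp_map, L.map_comp, hf, zero_comp, R.map_zero,
      comp_zero] at h6
    exact h6
  obtain ⟨t, ht⟩ : ∃ t : A ⟶ W, f ≫ g = t ≫ w := Triangle.coyoneda_exact₂ _ hΔ _ h5
  rw [ht, h4, comp_zero]

/-- A map to an object local for `E` factors through the `E`-localization. -/
lemma exists_factor {ι : Type} {E : ι → T} {S X V : T} (l : S ⟶ X) (hl : ∀ i, IsIso (E i ◁ l))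
    (hV : ∀ Z : T, (∀ i, IsZero (E i ⊗ Z)) → ∀ g : Z ⟶ V, g = 0) (v : S ⟶ V) :
    ∃ v' : X ⟶ V, v = l ≫ v' := by
  obtain ⟨W, w, b, hΔ⟩ := distinguished_cocone_triangle₁ l
  have h1 : ∀ i, IsZero (E i ⊗ W) := fun i =>
    (Triangle.isZero₁_iff_isIso₂ _ (TensorTriangulated.distinguished (E i) _ hΔ)).2 (hl i)
  obtain ⟨v', hv'⟩ : ∃ v' : X ⟶ V, v = l ≫ v' :=
    Triangle.yoneda_exact₂ _ hΔ v (hV W h1 _)
  exact ⟨v', hv'⟩

/-- **Failure of the weak chromatic splitting**, from the vanishing of long composites of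
`E`-null maps. -/
theorem no_retraction_aux [SymmetricCategory T] [SymmetricCategory D]
    {p n : ℕ} (hpn : p ≤ n) (hsq : n ^ 2 < 2 * (p - 1) ^ 2) (hp : 0 < p)
    (K : ℕ → T)
    {Sp : T} (c : 𝟙_ T ⟶ Sp)
    {Z : T} (z : Sp ⟶ Z) (hz : IsBousfieldLocalization (fun _ : Unit => K n) z)
    {X Y : T} (l : Sp ⟶ X) (hl : IsBousfieldLocalization (upTo K (n - 1)) l)
    (y : Z ⟶ Y)
    (i : X ⟶ Y) (hi : l ≫ i = z ≫ y)
    (L : T ⥤ D) [L.Additive] [L.CommShift ℤ] [L.IsTriangulated] [L.Monoidal]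
    (R : D ⥤ T) [R.Additive] (adj : L ⊣ R) [R.Full] [R.Faithful]
    (hker : ∀ W : T, IsZero (L.obj W) ↔ IsZero (K n ⊗ W))
    (E : D) [MonObj E]
    (htf : ∀ (j : ℤ) (g : (𝟙_ D)⟦j⟧ ⟶ E), p • g = 0 → g = 0)
    (hodd : ∀ (j : ℤ), Odd j → ∀ g : (𝟙_ D)⟦j⟧ ⟶ E ⊗ E, g = 0)
    (hvanish : ∀ (j : ℤ) (f : (𝟙_ D)⟦j⟧ ⟶ 𝟙_ D), AdamsFiltrationGE E (n ^ 2 + 1) f → f = 0)
    {V : T} (v : Sp ⟶ V) (hv : IsBousfieldLocalization (fun _ : Unit => K (p - 1)) v)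
    {m : ℤ} (hm : Even m) (β : (𝟙_ T)⟦m⟧ ⟶ 𝟙_ T) (hβ : p • β = 0)
    (hβ' : power β ((p - 1) ^ 2) ≫ c ≫ v ≠ 0) :
    ¬ ∃ r : Y ⟶ X, i ≫ r = 𝟙 X := by
  rintro ⟨r, hr⟩
  -- the unit isomorphism
  let ε : 𝟙_ D ≅ L.obj (𝟙_ T) := Functor.Monoidal.εIso L
  -- `x = β` in `D`
  let x : (𝟙_ D)⟦m⟧ ⟶ 𝟙_ D :=
    ε.hom⟦m⟧' ≫ (L.commShiftIso m).inv.app (𝟙_ T) ≫ L.map β ≫ ε.inv
  have hx : p • x = 0 := by
    have h1 : p • L.map β = 0 := by
      rw [← L.map_nsmul, hβ, L.map_zero]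
    simp only [x]
    rw [← Preadditive.comp_nsmul, ← Preadditive.comp_nsmul, ← Preadditive.nsmul_comp, h1]
    simp
  have hx2 : AdamsFiltrationGE E 2 x :=
    filtration_two E (htf m) (fun g => hodd (m + 1) hm.add_one g) x hx
  have hβ2 : AdamsFiltrationGE E 2 (L.map β) := by
    have e : L.map β = ((L.commShiftIso m).hom.app (𝟙_ T) ≫ ε.inv⟦m⟧') ≫ x ≫ ε.hom := by
      simp only [x, Category.assoc]
      rw [← Functor.map_comp_assoc, Iso.inv_hom_id, CategoryTheory.Functor.map_id,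
        Category.id_comp, Iso.hom_inv_id_app_assoc, Category.comp_id]
    rw [e]
    exact (hx2.postcomp _).precomp _
  -- the power of `β` dies in `D`
  set k := (p - 1) ^ 2 with hk
  have h2 := filtration_map_power L E β hβ2 k
  have h3 : L.map (power β k) = 0 := by
    obtain ⟨j, ⟨e₀⟩⟩ := nonempty_iterShift_iso (𝟙_ T) m k
    let e : (𝟙_ D)⟦j⟧ ≅ L.obj (iterShift (𝟙_ T) m k) :=
      (shiftFunctor D j).mapIso ε ≪≫ (L.commShiftIso j).symm.app (𝟙_ T) ≪≫ L.mapIso e₀.symm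
    have h4 : e.hom ≫ L.map (power β k) ≫ ε.inv = 0 := by
      apply hvanish
      refine AdamsFiltrationGE.mono ?_ ((h2.postcomp _).precomp _)
      omega
    rw [← cancel_epi e.hom, ← cancel_mono ε.inv, Category.assoc, h4]
    simp
  -- hence in `π_* L_{K(n)} S_p`
  have h5 : power β k ≫ (c ≫ z) = 0 :=
    comp_eq_zero_of_map_eq_zero L R adj (fun W hW g => hz.2 W (fun _ => (hker W).1 hW) g) _ h3 _
  -- hence in `π_* L_{n-1} S_p`
  have h6 : power β k ≫ c ≫ l = 0 := by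
    have h7 : power β k ≫ c ≫ l = (power β k ≫ (c ≫ z)) ≫ y ≫ r := by
      calc power β k ≫ c ≫ l = (power β k ≫ c) ≫ l ≫ (i ≫ r) := by rw [hr]; simp
        _ = (power β k ≫ c) ≫ (l ≫ i) ≫ r := by simp
        _ = _ := by rw [hi]; simp
    rw [h7, h5, zero_comp]
  -- hence in `π_* L_{K(p-1)} S_p`, a contradiction
  obtain ⟨v', hv'⟩ := exists_factor l hl.1 (V := V)
    (fun W hW g => hv.2 W (fun _ => hW ⟨p - 1, by omega⟩) g) v
  apply hβ'
  rw [hv', ← Category.assoc c, ← Category.assoc, h6, zero_comp]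

/-- **Failure of the weak chromatic splitting**, from the horizontal vanishing line of the
`E₂`-term of the `K(n)`-local `E_n`-based Adams spectral sequence. -/
theorem no_retraction [SymmetricCategory T] [SymmetricCategory D]
    {p n : ℕ} (hpn : p ≤ n) (hsq : n ^ 2 < 2 * (p - 1) ^ 2) (hp : 0 < p)
    (K : ℕ → T)
    {Sp : T} (c : 𝟙_ T ⟶ Sp)
    {Z : T} (z : Sp ⟶ Z) (hz : IsBousfieldLocalization (fun _ : Unit => K n) z)
    {X Y : T} (l : Sp ⟶ X) (hl : IsBousfieldLocalization (upTo K (n - 1)) l)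
    (y : Z ⟶ Y)
    (i : X ⟶ Y) (hi : l ≫ i = z ≫ y)
    (L : T ⥤ D) [L.Additive] [L.CommShift ℤ] [L.IsTriangulated] [L.Monoidal]
    (R : D ⥤ T) (adj : L ⊣ R) [R.Full] [R.Faithful]
    (hker : ∀ W : T, IsZero (L.obj W) ↔ IsZero (K n ⊗ W))
    {E I : D} [MonObj E] {ι : I ⟶ 𝟙_ D} {δ : E ⟶ I⟦(1 : ℤ)⟧}
    (hI : Triangle.mk ι η[E] δ ∈ distTriang D)
    (htf : ∀ (j : ℤ) (g : (𝟙_ D)⟦j⟧ ⟶ E), p • g = 0 → g = 0)
    (hodd : ∀ (j : ℤ), Odd j → ∀ g : (𝟙_ D)⟦j⟧ ⟶ E ⊗ E, g = 0)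
    (hE₂ : ∀ s : ℕ, n ^ 2 ≤ s → ∀ (j : ℤ) (e : (𝟙_ D)⟦j⟧ ⟶ tensorPower I (s + 1) ⊗ E),
      e ≫ adamsD1 δ (s + 1) = 0 →
        ∃ b : ((𝟙_ D)⟦j⟧)⟦(1 : ℤ)⟧ ⟶ tensorPower I s ⊗ E, b ≫ adamsD1 δ s = e⟦(1 : ℤ)⟧')
    (hconv : ∀ j : ℤ, ∃ N : ℕ, ∀ x : (𝟙_ D)⟦j⟧ ⟶ tensorPower I N, x ≫ towerMap ι N = 0)
    {V : T} (v : Sp ⟶ V) (hv : IsBousfieldLocalization (fun _ : Unit => K (p - 1)) v)
    {m : ℤ} (hm : Even m) (β : (𝟙_ T)⟦m⟧ ⟶ 𝟙_ T) (hβ : p • β = 0)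
    (hβ' : power β ((p - 1) ^ 2) ≫ c ≫ v ≠ 0) :
    ¬ ∃ r : Y ⟶ X, i ≫ r = 𝟙 X := by
  have : R.Additive := adj.right_adjoint_additive
  refine no_retraction_aux hpn hsq hp K c z hz l hl y i hi L R adj hker E htf hodd
    (fun j f hf => ?_) v hv hm β hβ hβ'
  exact AdamsT.eq_zero_of_nullComp hI _ (n ^ 2 + 1) (by omega)
    (fun s hs e he => hE₂ s (by omega) j e he) (hconv j) f hf.nullComp

end Vale.Agent.P251
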